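import Vale.Agent.P227.Main

/-!
The logarithmic Brunn-Minkowski inequality for origin-symmetric convex bodies with all but two
reflections in common.
-/

namespace Vale.Agent.Results.P227.AllButTwoReflections

open MeasureTheory Function

/-- Log-Brunn-Minkowski in `ℝ^(k+2)` for pairs invariant under `k` commuting linear reflections. -/
theorem result (k : ℕ) (T : (Fin (k + 2) → ℝ) ≃ₗ[ℝ] (Fin (k + 2) → ℝ))
    (K L : Set (Fin (k + 2) → ℝ))
    (hK : IsCompact K) (hKc : Convex ℝ K) (hKs : ∀ x ∈ K, -x ∈ K)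
    (hKi : (interior K).Nonempty)
    (hL : IsCompact L) (hLc : Convex ℝ L) (hLs : ∀ x ∈ L, -x ∈ L)
    (hLi : (interior L).Nonempty)
    (hKr : ∀ i : Fin (k + 2), (i : ℕ) < k → ∀ x ∈ K, T.symm (update (T x) i (-T x i)) ∈ K)
    (hLr : ∀ i : Fin (k + 2), (i : ℕ) < k → ∀ x ∈ L, T.symm (update (T x) i (-T x i)) ∈ L)
    (t : ℝ) (ht : t ∈ Set.Icc (0 : ℝ) 1) :
    volume K ^ (1 - t) * volume L ^ t
      ≤ volume {x : Fin (k + 2) → ℝ | ∀ u : Fin (k + 2) → ℝ, ∑ i, u i * x i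
          ≤ sSup ((fun y => ∑ i, u i * y i) '' K) ^ (1 - t)
            * sSup ((fun y => ∑ i, u i * y i) '' L) ^ t} :=
  Vale.Agent.P227.lbm_linear T ⟨hK, hKc, hKs, hKi⟩ ⟨hL, hLc, hLs, hLi⟩ hKr hLr ht

end Vale.Agent.Results.P227.AllButTwoReflections
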